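import Crest.Agent.X212.Tl47.Defs
import Crest.Agent.X212.Rdc90.Main
import Crest.Agent.X212.Clr59.Ys
import Crest.Agent.X212.Nck90.Rig0

/-!
# Row 212, P-TAIL (helper31): flat connections near a given one
-/

set_option autoImplicit false
set_option linter.unusedSectionVars false
noncomputable section
open scoped Manifold ContDiff Topology InnerProductSpace
open MeasureTheory Set Function Filter Real

namespace Crest.Agent.X212.Nbh31
open An An.Pre Sob92 Wz78 Pj41 Nd18 Cyf70 Rdc90 Tmp64 Clr59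
open Rf65 (Psc PY)
open Neck67 (Lb)
open Bki64 (Cl win win_op sm_slice norm_iso fsm_dA)

variable {E3 : Type} [NormedAddCommGroup E3] [NormedSpace ℝ E3] [FiniteDimensional ℝ E3]
  [MeasurableSpace E3] [BorelSpace E3]
  {H3 : Type} [TopologicalSpace H3] {I3 : ModelWithCorners ℝ E3 H3} [I3.Boundaryless]
  {Y : Type} [TopologicalSpace Y] [ChartedSpace H3 Y] [IsManifold I3 ∞ Y] [T2Space Y]
  [MeasurableSpace Y] [BorelSpace Y] [SecondCountableTopology Y] [CompactSpace Y]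
  {κ : Type} [Fintype κ] {lam : Type} [Fintype lam] {D : YD I3 Y κ lam} {β γ : YC Y κ lam}
  {O : Set (Y × ℝ)} {η : ℝ}

theorem lb_slc {N : Type} [NormedAddCommGroup N] [NormedSpace ℝ N] {F : Pre I3 Y κ} (hη : 0 ≤ η)
    (hO : ∀ y, (y, (0 : ℝ)) ∈ O) : ∀ {j : ℕ} {f : Y × ℝ → N}, Lb (cylP F) O j f η →
      Lb (cylP F) univ j (fun x => f (x.1, 0)) η
  | 0, f, h => fun x _ => ⟨sm_fst (f := fun y => f (y, 0)) (fun y => sm_slice (h _ (hO y)).1) x,
      (h _ (hO x.1)).2⟩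
  | _ + 1, f, h => by
    have sm : Sm I3 fun y => f (y, 0) := fun y => sm_slice (h.1 _ (hO y)).1
    refine ⟨fun x _ => ⟨sm_fst sm x, (h.1 _ (hO x.1)).2⟩, fun a => ?_⟩
    cases a with
    | none => rw [D_none_fst F sm]; exact (Lb.const isOpen_univ 0).mono (by simpa)
    | some a =>
      rw [D_some_fst F sm]
      simpa only [fun y => D_some_at F (x := (y, 0)) (FSm.md (h.1 _ (hO y)).1) a] using
        lb_slc hη hO (h.2 (some a))

/-- the gauge of a slice -/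
theorem cl_slc (hγ : D.Adm γ) (hβ : D.Adm β) {g : Y × ℝ → CL γ.m.V β.m.V} {ξ k} (hη : 0 ≤ η) (hO : ∀ y, (y, (0 : ℝ)) ∈ O)
    (h : Cl D.Z (cy γ) (cy β) g (fun _ => ξ) O k η) :
    Cl D.Z (cy γ) (cy β) (fun x => g (x.1, 0)) (fun _ => ξ) univ k η := by
  have sm : Sm I3 fun y => g (y, 0) := fun y => sm_slice (h.iso.su _ (hO y))
  refine ⟨isOpen_univ, ⟨fun x _ => sm_fst sm x, fun x _ => h.iso.iso _ (hO x.1),
    fun x _ => h.iso.J _ (hO x.1), fun x _ => h.iso.ρ _ (hO x.1), fun x _ => h.iso.j _ (hO x.1)⟩,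
    fun a => ?_, lb_slc hη hO h.P⟩
  cases a with
  | none =>
    refine ((Lb.const isOpen_univ 0).mono (by simpa)).congr isOpen_univ fun x _ => ?_
    show (D.Z.D none (fun x => g (x.1, 0)) x + β.W none x.1 ∘L g (x.1, 0) -
      g (x.1, 0) ∘L γ.W none x.1) ∘L trn (g (x.1, 0)) = 0
    rw [hβ.tmp, hγ.tmp, show D.Z.D none (fun x => g (x.1, 0)) x = 0 from
      congrFun (D_none_fst D.F.toPre sm) x]
    simp
  | some a =>
    exact (lb_slc hη hO (h.A (some a))).congr isOpen_univ fun x _ => congrArg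
      (fun T : CL γ.m.V β.m.V => (T + β.W (some a) x.1 ∘L g (x.1, 0) - g (x.1, 0) ∘L γ.W (some a) x.1) ∘L
        trn (g (x.1, 0))) ((congrFun (D_some_fst D.F.toPre sm a) x).trans
      (D_some_at D.F.toPre (x := (x.1, 0)) (h.iso.su _ (hO _)).md a).symm)

theorem eqs_cy (h : Bs D γ) (O) : Eqs D (cy γ) O := fun x _ => by
  have : (cy γ).Φ = fun _ => 0 := funext fun x => h.zr x.1
  rw [this, h.flat]
  simp [dir, nab, Md.mu, Md.q, rk1]
  exact (map_zero _).symm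

theorem har0 {ν : Fin 0 → κ → Y → ℝ} {r} (S : Psc D.F ν r) (b : Bs D β) {h} (hh : Har D β h) : h = 0 := by
  obtain ⟨f, hf, e⟩ := Rd78.en_eq (Rd78.riem_Y b.ok) (Rd78.con_A0 b.adm) (Rd78.skew_A0 b.adm) hh.sm hh.P
    hh.ed hh.dv fun a c x => Rd78.curv_A0 b.ok b.adm b.flat a c x (hh.mem c x)
  have := openPos D.F.toPre
  have c := (sm_dvg (F := D.F) hf).continuous.neg
  have e0 : ∀ x, 0 ≤ -dvg I3 D.F.e D.F.dv f x := fun x => e x ▸ S.en_nonneg (fun b => hh.sm b x) (hh.P · x)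
  have e1 := (c.ae_eq_iff_eq D.F.μ continuous_zero).1 ((integral_eq_zero_iff_of_nonneg e0
    (c.integrable_of_hasCompactSupport (.of_compactSpace _))).1 (by
      rw [integral_neg, integral_dvg hf fun _ => .of_compactSpace _, neg_zero]))
  exact funext₂ fun k y => ((S.of_en (fun b => hh.sm b y) (hh.P · y)
    ((e y).trans (congrFun e1 y)).le).1 k).trans (Fin.sum_univ_zero _)

/-- bounded harmonic forms converge uniformly along an ultrafilter -/
theorem har_lim [ConnectedSpace Y] {b} (hP : PY D b) (hb : Bs D β) {h : ℕ → κ → Y → β.m.A}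
    (H : ∀ n, Har D β (h n)) (bd : ∀ n k y, ‖h n k y‖ ≤ η) :
    ∃ h₀, Har D β h₀ ∧ ∀ δ > 0, ∀ᶠ n in hyperfilter ℕ, ∀ k y, ‖h₀ k y - h n k y‖ ≤ δ := by
  obtain ⟨b1, -, ν, ρ, S⟩ := hP
  interval_cases b
  · exact ⟨h 0, H 0, fun δ hδ => .of_forall fun n k y => by
      rw [har0 S hb (H n), har0 S hb (H 0)]; simpa using hδ.le⟩
  obtain ⟨ν, rfl⟩ : ∃ μ, ν = fun _ => μ := ⟨ν 0, funext fun i => by rw [Subsingleton.elim i 0]⟩
  choose ξ p e using fun n => (har_iff S hb).1 (H n)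
  obtain ⟨y₀⟩ : Nonempty Y := inferInstance
  have n1 : ∀ k y, ‖ν k y‖ ≤ 1 := fun k y => abs_le_one_iff_mul_self_le_one.2
    ((Finset.single_le_sum (f := fun a => ν a y * ν a y) (fun a _ => mul_self_nonneg _)
      (Finset.mem_univ k)).trans_eq (by simpa using S.ort 0 0 y))
  let R : Submodule ℝ β.m.A := (parS D β).map (LinearMap.proj y₀)
  obtain ⟨_, ⟨-, ζ, q, rfl⟩, hv⟩ := ((isCompact_closedBall (0 : β.m.A) (∑ _ : κ, η)).inter_right
    R.closed_of_finiteDimensional).ultrafilter_le_nhds ((hyperfilter ℕ).map fun n => ξ n y₀)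
    (le_principal_iff.2 ((Eventually.of_forall fun _ : ℕ => trivial).mono fun n _ => ⟨mem_closedBall_zero_iff.2 (by
      beta_reduce
      rw [← ctr_tY S (ξ := ξ n), ← e]
      exact norm_sum_le_of_le _ fun k _ => (norm_smul_le _ _).trans
        ((mul_le_of_le_one_left (norm_nonneg _) (n1 k y₀)).trans (bd n k y₀))), ξ n, p n, rfl⟩))
  refine ⟨_, (har_iff S hb).2 ⟨ζ, q, rfl⟩, fun δ hδ =>
    (Metric.tendsto_nhds.1 hv δ hδ).mono fun n hn k y => ?_⟩
  rw [e, tY_apply, tY_apply, ← smul_sub]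
  refine (norm_smul_le _ _).trans ((mul_le_of_le_one_left (norm_nonneg _) (n1 k y)).trans ?_)
  rw [dist_comm, dist_eq_norm] at hn
  exact (norm_par hb.ok hb.adm ((parS D β).sub_mem q (p n)) y y₀).trans_le hn.le

/-- a small change of the reference -/
theorem cl_chg {a a' : κ → Y → β.m.A} {u : Y × ℝ → CL γ.m.V β.m.V} {δ : ℝ}
    (h : Cl D.Z (cy γ) (cy (bh β a 0)) u (fun _ => 1) O 0 η) (hγ : D.Adm γ) (A : D.Adm (bh β a' 0))
    (hδ : 0 ≤ δ) (e : ∀ k y, ‖a' k y - a k y‖ ≤ δ) : Cl D.Z (cy γ) (cy (bh β a' 0)) u (fun _ => 1) O 0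
      (η + ‖(opL : CL β.m.A (En (Fin β.m.N)))‖ * δ) := by
  refine ⟨h.op, h.iso, fun o x hx => ⟨fsm_dA (F := D.Z) (c := cy γ) (c' := cy (bh β a' 0)) (h.iso.su x hx)
    (hγ.adm.conn.cc.sm o x) (A.adm.conn.cc.sm o x), ?_⟩, h.P.mono (le_add_of_nonneg_right (by positivity))⟩
  have e1 : ∀ (T V : CL γ.m.V β.m.V) (W : En (Fin β.m.N)) (t : CL β.m.V γ.m.V),
      (T + (W + opL (o.elim 0 fun k => a' k x.1)) ∘L u x - V) ∘L t =
      (T + (W + opL (o.elim 0 fun k => a k x.1)) ∘L u x - V) ∘L t +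
        (opL (o.elim 0 fun k => a' k x.1 - a k x.1) ∘L u x) ∘L t := fun T V W t => by
    rw [← ContinuousLinearMap.add_comp]
    congr 1
    cases o <;> simp [ContinuousLinearMap.add_comp, ContinuousLinearMap.sub_comp]
    abel
  have n1 := norm_iso (h.iso.iso x hx)
  have n2 := ad_trn (u x) ▸ (Nck90.nrm_ad _).trans_le n1
  refine (congrArg norm (e1 _ _ _ _)).trans_le (norm_add_le_of_le (h.A o x hx).2 ?_)
  exact (Nck90.nrm_cc (Nck90.nrm_cc (ContinuousLinearMap.le_of_opNorm_le_of_le opL le_rfl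
    (show ‖o.elim 0 fun k => a' k x.1 - a k x.1‖ ≤ δ by cases o; exacts [by simpa, e _ _])) n1)
      n2).trans_eq (by rw [mul_one, mul_one])

variable (D) in
/-- **LEAF NBH** -/
theorem nbH [ConnectedSpace Y] : Tl47.NbH D := fun b hP β hb ε hε => by
  obtain ⟨ν, ρ, S⟩ := hP.psc
  have : Subsingleton (Fin b) := Fin.subsingleton_iff_le_one.2 hP.b1
  obtain ⟨d, hd, de⟩ := dece D β hb (Rd78.hc _ _ _ _ D β hb _ ν ρ S) hP.ps
  obtain ⟨η, hη, de⟩ := de 0 ε hε
  refine ⟨η, hη, fun γ g ξ hγ C => ?_⟩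
  have ad := fun O => (admOn_univ.2 hγ.adm.adm).mono (subset_univ O)
  have C' := cl_slc (O := win Y 0 7) hγ.adm hb.adm hη.le (fun y => ⟨trivial, by norm_num, by norm_num⟩) C
  choose h H bd _ _ u cl using fun n : ℕ => de 0 (cy γ) (-n) n (neg_le_self n.cast_nonneg) fun s _ =>
    ⟨ad _, eqs_cy hγ _, _, ξ, (C'.mono (win_op _ _) (subset_univ _) le_rfl le_rfl).cls hb.adm
      isOpen_Ioo (ad _)⟩
  obtain ⟨h₀, H₀, lim⟩ := har_lim hP hb H fun n k y => CB_bound (bd n k) y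
  have A₀ : D.Adm (bh β h₀ 0) := Rd78.adm_bh hb.adm H₀.toFo ⟨contMDiff_const, fun _ => map_zero _⟩
  obtain ⟨g', ξ', St⟩ := Nck90.rig0 hγ.adm A₀ fun δ hδ => by
    have t : Tendsto (fun n : ℕ => ε * exp (-d * n)) atTop (𝓝 0) := by
      simpa using (tendsto_exp_atBot.comp
        (tendsto_natCast_atTop_atTop.const_mul_atTop_of_neg (neg_lt_zero.2 hd))).const_mul ε
    have K := norm_nonneg (opL : CL β.m.A (En (Fin β.m.N)))
    obtain ⟨n, k1, k2⟩ := ((lim (δ / 2 / (‖(opL : CL β.m.A (En (Fin β.m.N)))‖ + 1)) (by positivity)).and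
      ((t.mono_left Nat.hyperfilter_le_atTop).eventually_le_const (half_pos hδ))).exists
    refine ⟨u n, 1, (cl_chg (cl n 0 ⟨neg_nonpos.2 n.cast_nonneg, n.cast_nonneg⟩) hγ.adm A₀
      (by positivity) k1).mono (win_op _ _) Subset.rfl le_rfl ?_⟩
    have := mul_div_cancel₀ (δ / 2) (show ‖(opL : CL β.m.A (En (Fin β.m.N)))‖ + 1 ≠ 0 by positivity)
    have : 0 < δ / 2 / (‖(opL : CL β.m.A (En (Fin β.m.N)))‖ + 1) := by positivity
    simp only [sub_neg_eq_add, zero_add, sub_zero, min_self]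
    linarith
  refine ⟨h₀, H₀, fun k y => le_of_forall_pos_le_add fun δ hδ => ?_, St.eqv hb.ok hγ.adm A₀⟩
  obtain ⟨n, hn⟩ := (lim δ hδ).exists
  linarith [norm_le_norm_sub_add (h₀ k y) (h n k y), hn k y, CB_bound (bd n k) y]

end Crest.Agent.X212.Nbh31
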